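import Mathlib

/-! P110: Littlewood polynomials, definitions. -/

namespace Vale.Agent.P110

open Finset

/-- aperiodic autocorrelation at shift `k` of the sign sequence `ε 0, ..., ε (N-1)` -/
def ac (ε : ℕ → ℝ) (N k : ℕ) : ℝ := ∑ b ∈ range (N - k), ε (b + k) * ε b

/-- the polynomial `∑_{k < N} ε k z ^ k` -/
def pol (ε : ℕ → ℝ) (N : ℕ) (z : ℂ) : ℂ := ∑ k ∈ range N, (ε k : ℂ) * z ^ k

/-- the `j`-th of the `M`-th roots of unity -/
noncomputable def rt (M j : ℕ) : ℂ := Complex.exp (2 * Real.pi * Complex.I * j / M)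

end Vale.Agent.P110
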