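import Vale.Agent.P110.Defs

/-! P110, PART B: `|P(z)|^2 = N + 2 ∑ c_k Re z^k` on the unit circle. -/

namespace Vale.Agent.P110

open Finset

theorem ac_succ (ε : ℕ → ℝ) (N k : ℕ) (hk : k ≤ N) :
    ac ε (N + 1) k = ac ε N k + ε N * ε (N - k) := by
  unfold ac
  have h1 : N + 1 - k = (N - k) + 1 := by omega
  have h2 : N - k + k = N := by omega
  rw [h1, Finset.sum_range_succ, h2]

theorem re_aux (z : ℂ) (hz : ‖z‖ = 1) (N b : ℕ) (hb : b ≤ N) :
    (z ^ b * (starRingEnd ℂ) (z ^ N)).re = (z ^ (N - b)).re := by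
  have h1 : z ^ N = z ^ b * z ^ (N - b) := by
    rw [← pow_add]
    congr 1
    omega
  rw [h1, map_mul, ← mul_assoc, Complex.mul_conj, Complex.normSq_eq_norm_sq, norm_pow, hz]
  simp only [one_pow, Complex.ofReal_one, one_mul, Complex.conj_re]

theorem normSq_pol (ε : ℕ → ℝ) (hε : ∀ k, ε k = 1 ∨ ε k = -1) (N : ℕ) (z : ℂ) (hz : ‖z‖ = 1) :
    ‖pol ε N z‖ ^ 2 = N + 2 * ∑ k ∈ Ico 1 N, ac ε N k * (z ^ k).re := by
  induction N with
  | zero => simp [pol]
  | succ N ih =>
    have hp : pol ε (N + 1) z = pol ε N z + (ε N : ℂ) * z ^ N := by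
      unfold pol
      rw [Finset.sum_range_succ]
    have h1 : ‖pol ε (N + 1) z‖ ^ 2 = ‖pol ε N z‖ ^ 2 + 1
        + 2 * (pol ε N z * (starRingEnd ℂ) ((ε N : ℂ) * z ^ N)).re := by
      rw [hp, ← Complex.normSq_eq_norm_sq, Complex.normSq_add, Complex.normSq_eq_norm_sq,
        Complex.normSq_eq_norm_sq]
      have h : ‖(ε N : ℂ) * z ^ N‖ = 1 := by
        rw [norm_mul, norm_pow, hz, one_pow, mul_one, Complex.norm_real]
        rcases hε N with h | h <;> simp [h]
      rw [h]
      ring
    have h2 : (pol ε N z * (starRingEnd ℂ) ((ε N : ℂ) * z ^ N)).re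
        = ε N * ∑ b ∈ range N, ε b * (z ^ (N - b)).re := by
      unfold pol
      rw [Finset.sum_mul, Complex.re_sum, Finset.mul_sum]
      apply Finset.sum_congr rfl
      intro b hb
      have hb' : b ≤ N := (Finset.mem_range.1 hb).le
      rw [map_mul, Complex.conj_ofReal]
      have h : (ε b : ℂ) * z ^ b * ((ε N : ℂ) * (starRingEnd ℂ) (z ^ N))
          = ((ε N * ε b : ℝ) : ℂ) * (z ^ b * (starRingEnd ℂ) (z ^ N)) := by
        push_cast
        ring
      rw [h, Complex.re_ofReal_mul, re_aux z hz N b hb']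
      ring
    have h3 : ∑ k ∈ Ico 1 (N + 1), ac ε (N + 1) k * (z ^ k).re
        = ∑ k ∈ Ico 1 N, ac ε N k * (z ^ k).re
          + ε N * ∑ b ∈ range N, ε b * (z ^ (N - b)).re := by
      have e1 : ∑ k ∈ Ico 1 (N + 1), ac ε (N + 1) k * (z ^ k).re
          = ∑ k ∈ Ico 1 (N + 1), ac ε N k * (z ^ k).re
            + ε N * ∑ k ∈ Ico 1 (N + 1), ε (N - k) * (z ^ k).re := by
        rw [Finset.mul_sum, ← Finset.sum_add_distrib]
        apply Finset.sum_congr rfl
        intro k hk
        rw [ac_succ ε N k (by have := Finset.mem_Ico.1 hk; omega)]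
        ring
      have e2 : ∑ k ∈ Ico 1 (N + 1), ac ε N k * (z ^ k).re
          = ∑ k ∈ Ico 1 N, ac ε N k * (z ^ k).re := by
        rcases Nat.eq_zero_or_pos N with rfl | hN
        · simp
        · rw [Finset.sum_Ico_succ_top hN]
          simp [ac]
      have e3 : ∑ k ∈ Ico 1 (N + 1), ε (N - k) * (z ^ k).re
          = ∑ b ∈ range N, ε b * (z ^ (N - b)).re := by
        apply Finset.sum_nbij' (fun k => N - k) (fun b => N - b)
        · intro k hk
          have := Finset.mem_Ico.1 hk
          exact Finset.mem_range.2 (by omega)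
        · intro b hb
          have := Finset.mem_range.1 hb
          exact Finset.mem_Ico.2 (by omega)
        · intro k hk
          have := Finset.mem_Ico.1 hk
          show N - (N - k) = k
          omega
        · intro b hb
          have := Finset.mem_range.1 hb
          show N - (N - b) = b
          omega
        · intro k hk
          have := Finset.mem_Ico.1 hk
          have h : N - (N - k) = k := by omega
          show ε (N - k) * (z ^ k).re = ε (N - k) * (z ^ (N - (N - k))).re
          rw [h]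
      rw [e1, e2, e3]
    rw [h1, ih, h2, h3]
    push_cast
    ring

end Vale.Agent.P110
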