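import Vale.Agent.P110.Orth

namespace Vale.Agent.P110

open Finset

theorem kron_eq (m r : ℕ) (hm : 0 < m) (q ρ : ℕ → ℝ) (z : ℂ) :
    ∑ k ∈ range (m * r), ((q (k % m) * ρ (k / m) : ℝ) : ℂ) * z ^ k =
      (∑ i ∈ range m, (q i : ℂ) * z ^ i) * (∑ j ∈ range r, (ρ j : ℂ) * (z ^ m) ^ j) := by
  induction r with
  | zero => simp
  | succ r ih =>
    rw [Nat.mul_succ, Finset.sum_range_add, ih, Finset.sum_range_succ, mul_add]
    congr 1
    rw [Finset.sum_mul]
    apply Finset.sum_congr rfl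
    intro i hi
    have hi' : i < m := Finset.mem_range.1 hi
    have h1 : (m * r + i) % m = i := by
      rw [Nat.mul_add_mod, Nat.mod_eq_of_lt hi']
    have h2 : (m * r + i) / m = r := by
      rw [Nat.mul_add_div hm, Nat.div_eq_of_lt hi', add_zero]
    rw [h1, h2, pow_add, pow_mul]
    push_cast
    ring

end Vale.Agent.P110
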