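import Vale.Agent.P110.Defs

/-! P110, PART C: the autocorrelations at shifts of the right parity are odd integers. -/

namespace Vale.Agent.P110

open Finset

/-- a sum of `m` signs is an integer of the parity of `m` -/
theorem sign_sum (g : ℕ → ℝ) (hg : ∀ b, g b = 1 ∨ g b = -1) (m : ℕ) :
    ∃ t : ℤ, ∑ b ∈ range m, g b = (m : ℝ) + 2 * (t : ℝ) := by
  induction m with
  | zero => exact ⟨0, by simp⟩
  | succ m ih =>
    obtain ⟨t, ht⟩ := ih
    rw [Finset.sum_range_succ, ht]
    rcases hg m with h | h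
    · exact ⟨t, by rw [h]; push_cast; ring⟩
    · exact ⟨t - 1, by rw [h]; push_cast; ring⟩

theorem one_le_sq_of_odd (g : ℕ → ℝ) (hg : ∀ b, g b = 1 ∨ g b = -1) (m : ℕ) (hm : Odd m) :
    1 ≤ (∑ b ∈ range m, g b) ^ 2 := by
  obtain ⟨t, ht⟩ := sign_sum g hg m
  obtain ⟨r, rfl⟩ := hm
  rw [ht]
  have h1 : (((2 * r + 1 : ℕ) : ℝ) + 2 * (t : ℝ)) = (((2 * (r : ℤ) + 1 + 2 * t : ℤ)) : ℝ) := by
    push_cast
    ring
  rw [h1]
  have h2 : (1 : ℤ) ≤ (2 * (r : ℤ) + 1 + 2 * t) ^ 2 := by
    have h3 : (2 * (r : ℤ) + 1 + 2 * t) ≠ 0 := by omega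
    have := Int.one_le_abs h3
    nlinarith [abs_nonneg (2 * (r : ℤ) + 1 + 2 * t), sq_abs (2 * (r : ℤ) + 1 + 2 * t)]
  exact_mod_cast h2

theorem count_odd (N : ℕ) :
    ((N : ℝ) - 1) / 2 ≤ ∑ k ∈ Ico 1 N, (if Odd (N - k) then (1 : ℝ) else 0) := by
  have e : ∑ k ∈ Ico 1 N, (if Odd (N - k) then (1 : ℝ) else 0)
      = ∑ m ∈ Ico 1 N, (if Odd m then (1 : ℝ) else 0) := by
    apply Finset.sum_nbij' (fun k => N - k) (fun b => N - b)
    · intro k hk
      have := Finset.mem_Ico.1 hk
      exact Finset.mem_Ico.2 (by omega)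
    · intro b hb
      have := Finset.mem_Ico.1 hb
      exact Finset.mem_Ico.2 (by omega)
    · intro k hk
      have := Finset.mem_Ico.1 hk
      show N - (N - k) = k
      omega
    · intro b hb
      have := Finset.mem_Ico.1 hb
      show N - (N - b) = b
      omega
    · intro k _
      rfl
  rw [e]
  -- stronger statement by induction
  have key : ∀ N : ℕ, 1 ≤ N →
      ((N : ℝ) - 1) / 2 + (if Odd N then 0 else 1 / 2)
        ≤ ∑ m ∈ Ico 1 N, (if Odd m then (1 : ℝ) else 0) := by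
    intro N hN
    induction N, hN using Nat.le_induction with
    | base => simp
    | succ N hN ih =>
      rw [Finset.sum_Ico_succ_top hN]
      by_cases h : Odd N
      · have h' : ¬ Odd (N + 1) := by
          rw [Nat.odd_add_one]
          simpa using h
        rw [if_pos h] at ih ⊢
        rw [if_neg h']
        push_cast
        linarith
      · have h' : Odd (N + 1) := by
          rw [Nat.odd_add_one]
          exact h
        rw [if_neg h] at ih ⊢
        rw [if_pos h']
        push_cast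
        linarith
  rcases Nat.eq_zero_or_pos N with rfl | hN
  · simp
    norm_num
  · have := key N hN
    have h0 : (0 : ℝ) ≤ (if Odd N then 0 else 1 / 2) := by split_ifs <;> norm_num
    linarith

theorem ac_sq_sum (ε : ℕ → ℝ) (hε : ∀ k, ε k = 1 ∨ ε k = -1) (N : ℕ) :
    ((N : ℝ) - 1) / 2 ≤ ∑ k ∈ Ico 1 N, ac ε N k ^ 2 := by
  refine (count_odd N).trans ?_
  apply Finset.sum_le_sum
  intro k _
  split_ifs with h
  · unfold ac
    apply one_le_sq_of_odd (fun b => ε (b + k) * ε b) _ _ h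
    intro b
    rcases hε (b + k) with h1 | h1 <;> rcases hε b with h2 | h2 <;> simp [h1, h2]
  · exact sq_nonneg _

end Vale.Agent.P110
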