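import Vale.Agent.P110.Orth
import Vale.Agent.P110.Expand
import Vale.Agent.P110.Parity

/-! P110: every real Littlewood polynomial deviates from flatness by at least `sqrt (N - 1)`. -/

namespace Vale.Agent.P110

open Finset

theorem sum_sq (ε : ℕ → ℝ) (hε : ∀ k, ε k = 1 ∨ ε k = -1) (N : ℕ) :
    ∑ j ∈ range (2 * N), (‖pol ε N (rt (2 * N) j)‖ ^ 2 - N) ^ 2
      = 2 * ((2 * N : ℕ) : ℝ) * ∑ k ∈ Ico 1 N, ac ε N k ^ 2 := by
  have h1 : ∀ j, (‖pol ε N (rt (2 * N) j)‖ ^ 2 - N) ^ 2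
      = 4 * ∑ k ∈ Ico 1 N, ∑ l ∈ Ico 1 N, ac ε N k * ac ε N l *
        (((rt (2 * N) j) ^ k).re * ((rt (2 * N) j) ^ l).re) := by
    intro j
    rw [normSq_pol ε hε N _ (norm_rt _ _)]
    have : ((N : ℝ) + 2 * ∑ k ∈ Ico 1 N, ac ε N k * ((rt (2 * N) j) ^ k).re - N) ^ 2
        = 4 * ((∑ k ∈ Ico 1 N, ac ε N k * ((rt (2 * N) j) ^ k).re)
          * (∑ l ∈ Ico 1 N, ac ε N l * ((rt (2 * N) j) ^ l).re)) := by ring
    rw [this, Finset.sum_mul_sum]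
    congr 1
    refine Finset.sum_congr rfl (fun k _ => Finset.sum_congr rfl (fun l _ => ?_))
    ring
  rw [Finset.sum_congr rfl (fun j _ => h1 j), ← Finset.mul_sum, Finset.sum_comm]
  have h2 : ∀ k ∈ Ico 1 N, ∑ j ∈ range (2 * N), ∑ l ∈ Ico 1 N, ac ε N k * ac ε N l *
        (((rt (2 * N) j) ^ k).re * ((rt (2 * N) j) ^ l).re)
      = ac ε N k ^ 2 * (((2 * N : ℕ) : ℝ) / 2) := by
    intro k hk
    rw [Finset.sum_comm]
    have h3 : ∀ l ∈ Ico 1 N, ∑ j ∈ range (2 * N), ac ε N k * ac ε N l *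
        (((rt (2 * N) j) ^ k).re * ((rt (2 * N) j) ^ l).re)
        = if k = l then ac ε N k ^ 2 * (((2 * N : ℕ) : ℝ) / 2) else 0 := by
      intro l hl
      rw [← Finset.mul_sum]
      have hk' := Finset.mem_Ico.1 hk
      have hl' := Finset.mem_Ico.1 hl
      rw [orth (2 * N) k l (by omega) (by omega) (by omega)]
      split_ifs with h
      · subst h; ring
      · ring
    rw [Finset.sum_congr rfl h3, Finset.sum_ite_eq (Ico 1 N) k, if_pos hk]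
  rw [Finset.sum_congr rfl h2, ← Finset.sum_mul]
  ring

theorem main (ε : ℕ → ℝ) (hε : ∀ k, ε k = 1 ∨ ε k = -1) (N : ℕ) (hN : 1 ≤ N) :
    ∃ z : ℂ, ‖z‖ = 1 ∧ Real.sqrt ((N : ℝ) - 1) ≤ |‖pol ε N z‖ ^ 2 - N| := by
  have h1 := sum_sq ε hε N
  have h2 := ac_sq_sum ε hε N
  have hM : (0 : ℝ) < ((2 * N : ℕ) : ℝ) := by
    have : 0 < 2 * N := by omega
    exact_mod_cast this
  have h3 : ∑ _j ∈ range (2 * N), ((N : ℝ) - 1)
      ≤ ∑ j ∈ range (2 * N), (‖pol ε N (rt (2 * N) j)‖ ^ 2 - N) ^ 2 := by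
    rw [h1, Finset.sum_const, Finset.card_range, nsmul_eq_mul]
    nlinarith
  have hne : (range (2 * N)).Nonempty := by
    rw [Finset.nonempty_range_iff]; omega
  obtain ⟨j, _, hj⟩ := Finset.exists_le_of_sum_le hne h3
  refine ⟨rt (2 * N) j, norm_rt _ _, ?_⟩
  rw [← Real.sqrt_sq_eq_abs]
  exact Real.sqrt_le_sqrt hj

end Vale.Agent.P110
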