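import Vale.Agent.P110.Defs

/-! P110 PART A: orthogonality of `Re z^k` over the `M`-th roots of unity. -/

namespace Vale.Agent.P110

open Finset

theorem rt_eq (M j : ℕ) :
    rt M j = Complex.exp (((2 * Real.pi * j / M : ℝ) : ℂ) * Complex.I) := by
  unfold rt
  congr 1
  push_cast
  ring

theorem norm_rt (M j : ℕ) : ‖rt M j‖ = 1 := by
  rw [rt_eq]; exact Complex.norm_exp_ofReal_mul_I _

theorem rt_pow (M j : ℕ) : rt M j = (Complex.exp (2 * Real.pi * Complex.I / M)) ^ j := by
  unfold rt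
  rw [← Complex.exp_nat_mul]
  congr 1
  ring

theorem sum_rt_pow (M m : ℕ) (hm : 0 < m) (hmM : m < M) :
    ∑ j ∈ range M, (rt M j) ^ m = 0 := by
  have hM : M ≠ 0 := by omega
  have hw := Complex.isPrimitiveRoot_exp M hM
  set w := Complex.exp (2 * Real.pi * Complex.I / M) with hwdef
  have h1 : ∀ j, (rt M j) ^ m = (w ^ m) ^ j := by
    intro j
    rw [rt_pow, ← hwdef, ← pow_mul, ← pow_mul, Nat.mul_comm]
  simp only [h1]
  have hy : w ^ m ≠ 1 := by
    intro h
    have := (hw.pow_eq_one_iff_dvd m).1 h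
    exact absurd (Nat.le_of_dvd hm this) (by omega)
  have hyM : (w ^ m) ^ M = 1 := by
    rw [← pow_mul, mul_comm, pow_mul, hw.pow_eq_one, one_pow]
  have := geom_sum_mul (w ^ m) M
  rw [hyM, sub_self] at this
  rcases mul_eq_zero.1 this with h | h
  · exact h
  · exact absurd (sub_eq_zero.1 h) hy

theorem re_mul_re (a b : ℂ) :
    a.re * b.re = ((a * b).re + (a * (starRingEnd ℂ) b).re) / 2 := by
  simp only [Complex.mul_re, Complex.conj_re, Complex.conj_im]
  ring

theorem pow_mul_conj (x : ℂ) (hx : ‖x‖ = 1) (k l : ℕ) (h : l ≤ k) :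
    x ^ k * (starRingEnd ℂ) (x ^ l) = x ^ (k - l) := by
  have h1 : x ^ l * (starRingEnd ℂ) (x ^ l) = 1 := by
    rw [Complex.mul_conj, Complex.normSq_eq_norm_sq, norm_pow, hx]
    simp
  calc x ^ k * (starRingEnd ℂ) (x ^ l)
      = x ^ (k - l) * (x ^ l * (starRingEnd ℂ) (x ^ l)) := by
        rw [← mul_assoc, ← pow_add, Nat.sub_add_cancel h]
    _ = x ^ (k - l) := by rw [h1, mul_one]

theorem orth_lt (M k l : ℕ) (hl : 0 < l) (hlk : l < k) (hkl : k + l < M) :
    ∑ j ∈ range M, ((rt M j) ^ k).re * ((rt M j) ^ l).re = 0 := by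
  have h : ∀ j, ((rt M j) ^ k).re * ((rt M j) ^ l).re
      = (((rt M j) ^ (k + l)).re + ((rt M j) ^ (k - l)).re) / 2 := by
    intro j
    rw [re_mul_re, ← pow_add, pow_mul_conj _ (norm_rt M j) k l hlk.le]
  simp only [h]
  rw [← Finset.sum_div, Finset.sum_add_distrib, ← Complex.re_sum, ← Complex.re_sum,
    sum_rt_pow M (k + l) (by omega) hkl, sum_rt_pow M (k - l) (by omega) (by omega)]
  simp

theorem orth (M : ℕ) (k l : ℕ) (hk : 0 < k) (hl : 0 < l) (hkl : k + l < M) :
    ∑ j ∈ range M, ((rt M j) ^ k).re * ((rt M j) ^ l).re = if k = l then (M : ℝ) / 2 else 0 := by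
  rcases lt_trichotomy k l with h | h | h
  · rw [if_neg (by omega)]
    have h2 := orth_lt M l k hk h (by omega)
    rw [← h2]
    exact Finset.sum_congr rfl (fun j _ => mul_comm _ _)
  · subst h
    rw [if_pos rfl]
    have h : ∀ j, ((rt M j) ^ k).re * ((rt M j) ^ k).re
        = (((rt M j) ^ (k + k)).re + 1) / 2 := by
      intro j
      rw [re_mul_re, ← pow_add, pow_mul_conj _ (norm_rt M j) k k le_rfl]
      simp
    simp only [h]
    rw [← Finset.sum_div, Finset.sum_add_distrib, ← Complex.re_sum,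
      sum_rt_pow M (k + k) (by omega) hkl]
    simp
  · rw [if_neg (by omega)]
    exact orth_lt M k l hl h hkl

end Vale.Agent.P110
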