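import Vale.Agent.P110.Orth

namespace Vale.Agent.P110

open Finset

theorem inner_sum (m i i' : ℕ) (hi : i < m) (hi' : i' < m) :
    ∑ j ∈ range m, (rt m j) ^ i * (starRingEnd ℂ) ((rt m j) ^ i')
      = if i = i' then (m : ℂ) else 0 := by
  rcases lt_trichotomy i i' with h | h | h
  · rw [if_neg (by omega)]
    have h1 : ∀ j ∈ range m, (rt m j) ^ i * (starRingEnd ℂ) ((rt m j) ^ i')
        = (starRingEnd ℂ) ((rt m j) ^ (i' - i)) := by
      intro j _
      rw [← pow_mul_conj _ (norm_rt m j) i' i h.le, map_mul, Complex.conj_conj, mul_comm]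
    rw [Finset.sum_congr rfl h1, ← map_sum, sum_rt_pow m (i' - i) (by omega) (by omega), map_zero]
  · subst h
    rw [if_pos rfl]
    have h1 : ∀ j ∈ range m, (rt m j) ^ i * (starRingEnd ℂ) ((rt m j) ^ i) = 1 := by
      intro j _
      rw [pow_mul_conj _ (norm_rt m j) i i le_rfl]
      simp
    rw [Finset.sum_congr rfl h1]
    simp
  · rw [if_neg (by omega)]
    have h1 : ∀ j ∈ range m, (rt m j) ^ i * (starRingEnd ℂ) ((rt m j) ^ i')
        = (rt m j) ^ (i - i') := fun j _ => pow_mul_conj _ (norm_rt m j) i i' h.le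
    rw [Finset.sum_congr rfl h1, sum_rt_pow m (i - i') (by omega) (by omega)]

theorem parseval_c (m : ℕ) (a : ℕ → ℂ) :
    ∑ j ∈ range m, (∑ i ∈ range m, a i * (rt m j) ^ i) *
        (starRingEnd ℂ) (∑ i ∈ range m, a i * (rt m j) ^ i)
      = m * ∑ i ∈ range m, a i * (starRingEnd ℂ) (a i) := by
  have h1 : ∀ j, (∑ i ∈ range m, a i * (rt m j) ^ i) *
        (starRingEnd ℂ) (∑ i ∈ range m, a i * (rt m j) ^ i)
      = ∑ i ∈ range m, ∑ i' ∈ range m, (a i * (starRingEnd ℂ) (a i')) *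
          ((rt m j) ^ i * (starRingEnd ℂ) ((rt m j) ^ i')) := by
    intro j
    rw [map_sum, Finset.sum_mul_sum]
    apply Finset.sum_congr rfl
    intro i _
    apply Finset.sum_congr rfl
    intro i' _
    rw [map_mul]
    ring
  simp only [h1]
  rw [Finset.sum_comm, Finset.mul_sum]
  apply Finset.sum_congr rfl
  intro i hi
  rw [Finset.sum_comm]
  have h2 : ∀ i' ∈ range m, ∑ j ∈ range m, (a i * (starRingEnd ℂ) (a i')) *
          ((rt m j) ^ i * (starRingEnd ℂ) ((rt m j) ^ i'))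
      = if i = i' then (a i * (starRingEnd ℂ) (a i')) * (m : ℂ) else 0 := by
    intro i' hi'
    rw [← Finset.mul_sum, inner_sum m i i' (mem_range.1 hi) (mem_range.1 hi')]
    split_ifs <;> simp
  rw [Finset.sum_congr rfl h2, Finset.sum_ite_eq (range m) i, if_pos hi]
  ring

theorem rot_parseval (m : ℕ) (hm : 0 < m) (q : ℕ → ℝ) (hq : ∀ k, q k = 1 ∨ q k = -1)
    (z : ℂ) (hz : ‖z‖ = 1) :
    ∑ j ∈ range m, ‖∑ i ∈ range m, (q i : ℂ) * (z * rt m j) ^ i‖ ^ 2 = (m : ℝ) ^ 2 := by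
  have key := parseval_c m (fun i => (q i : ℂ) * z ^ i)
  have h1 : ∀ j, ∑ i ∈ range m, (q i : ℂ) * (z * rt m j) ^ i
      = ∑ i ∈ range m, ((q i : ℂ) * z ^ i) * (rt m j) ^ i := by
    intro j
    apply Finset.sum_congr rfl
    intro i _
    rw [mul_pow]
    ring
  have h2 : ∀ i ∈ range m, ((q i : ℂ) * z ^ i) * (starRingEnd ℂ) ((q i : ℂ) * z ^ i) = 1 := by
    intro i _
    rw [Complex.mul_conj, Complex.normSq_eq_norm_sq, norm_mul, norm_pow, hz, one_pow, mul_one,
      Complex.norm_real]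
    rcases hq i with h | h <;> simp [h]
  rw [Finset.sum_congr rfl h2] at key
  apply Complex.ofReal_injective
  rw [Complex.ofReal_sum]
  have h3 : ∀ j ∈ range m, ((‖∑ i ∈ range m, (q i : ℂ) * (z * rt m j) ^ i‖ ^ 2 : ℝ) : ℂ)
      = (∑ i ∈ range m, ((q i : ℂ) * z ^ i) * (rt m j) ^ i) *
        (starRingEnd ℂ) (∑ i ∈ range m, ((q i : ℂ) * z ^ i) * (rt m j) ^ i) := by
    intro j _
    rw [Complex.mul_conj, Complex.normSq_eq_norm_sq, h1 j]
  rw [Finset.sum_congr rfl h3, key]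
  simp
  ring

end Vale.Agent.P110
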